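import Vale.Agent.P354CB.Ez

/-!
Existence and uniqueness of the maximal development from the steps.
-/

open Set Filter Topology

namespace Vale.Agent.P354CB60

open Vale.Agent.P354n Vale.Agent.P354CB
open Vale.Agent.P354I (X Dat IsDev)
open Vale.Agent.P354J (PDy)

variable {d : Dat} (Z : L0) (T : L3) (hd : PDy d) {A B C : LD d}
include T hd

theorem rel_symm {x y} (h : Rel A B x y) : Rel B A y x := by
  obtain ⟨U, ψ, h1, h2, rfl⟩ := h
  obtain ⟨φ, h3, h4⟩ := T.symm d hd A B U ψ h1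
  exact ⟨_, φ, h3, mem_image_of_mem ψ h2, h4 x h2⟩

theorem rel_trans {x y z} (h : Rel A B x y) (k : Rel B C y z) : Rel A C x z := by
  obtain ⟨U, ψ, h1, h2, rfl⟩ := h
  obtain ⟨V, φ, h3, h4, rfl⟩ := k
  exact ⟨_, _, T.trans d hd A B C U ψ V φ h1 h3, ⟨h2, h4⟩, rfl⟩

include Z

theorem rel_self {x y} (h : Rel A A x y) : y = x := by
  obtain ⟨U, ψ, h1, h2, rfl⟩ := h
  exact T.func d hd A A U ψ univ id h1 (com_id Z.k1 A) ⟨h2, trivial⟩

omit T hd in
/-- An injective local isometry is an open embedding. -/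
theorem emb_of {M N : Spc} (hM : St M) (hN : St N) {k : M.pt → N.pt} (h : ∀ x, LM k x)
    (hi : Function.Injective k) : IsOpenEmbedding k := by
  refine .of_continuous_injective_isOpenMap (continuous_iff_continuousAt.2 fun x => (h x).1) hi
    (isOpenMap_iff_nhds_le.2 fun x V hV => ?_)
  obtain ⟨W, φ, -, h2, h3, h4⟩ := Z.k2.inv hM hN (x := x) (Eventually.of_forall h)
  have h5 : k ⁻¹' V ∈ 𝓝 (φ (k x)) := (h4 x h2).2.1.symm ▸ hV
  filter_upwards [h3.mem_nhds (mem_image_of_mem k h2), (h4 x h2).2.2.1 h5]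
  rintro _ ⟨z, hz, rfl⟩ h6
  rwa [mem_preimage, (h4 z hz).2.1] at h6

/-- A development all of whose points are identified with points of the glued space embeds. -/
theorem emb_gl {ι : Type} {A : ι → LD d} {N : Spc} {κ : ∀ i, (A i).N.pt → N.pt} (G : Gl A N κ)
    (h : ∀ p : B.N.pt, ∃ i x, Rel B (A i) p x) : ∃ k : B.N.pt → N.pt, IsOpenEmbedding k ∧
      IsIsom k ∧ ∀ p i x, Rel B (A i) p x → k p = κ i x := by
  choose i x hx using h
  have h1 : ∀ p l y, Rel B (A l) p y → κ (i p) (x p) = κ l y := fun p l y hy =>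
    (G.eq _ _ _ _).2 (rel_trans T hd (rel_symm T hd (hx p)) hy)
  have h2 : ∀ p, LM (fun p => κ (i p) (x p)) p := fun p => by
    obtain ⟨U, ψ, c1, c2, -⟩ := hx p
    refine Z.k1.congr (Z.k1.comp B.h.gh.st (A (i p)).h.gh.st G.st (c1.lm p c2)
      (Z.k1.of_isom (G.iso _) (G.emb _).continuous _)) ?_
    filter_upwards [c1.hull.op.mem_nhds c2] with q hq
    exact h1 q _ _ ⟨U, ψ, c1, hq, rfl⟩
  refine ⟨_, emb_of Z B.h.gh.st G.st h2 fun p q e => ?_, Z.k1.isom h2, h1⟩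
  exact (rel_self Z T hd (rel_trans T hd (rel_trans T hd (hx p) ((G.eq _ _ _ _).1 e))
    (rel_symm T hd (hx q)))).symm

omit hd

/-- Row MG. -/
theorem mg (h1 : LD1) (h2 : LD2) (hS : SAT) (g1 : GL1) (g2 : GL2) : MG := fun d hd hc => by
  obtain ⟨A, a1, a2⟩ := hS d hd fun y hy => by
    obtain ⟨g, D, Xf, b1, b2, b3, b4⟩ := h1 d hd hc y hy
    exact h2 d hd y hy g D Xf b1 b2 b3 b4
  obtain ⟨N, κ, G⟩ := g1 d hd _ A
  obtain ⟨j, j1, j2⟩ := g2 d hd _ A N κ G a1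
  refine ⟨N, j, j1, fun N' j' h' => ?_⟩
  obtain ⟨k, k1, k2, k3⟩ := emb_gl Z T hd (B := ⟨_, N', j', dev_of h'⟩) G (a2 _)
  refine ⟨k, k1, k2, fun y hy => ?_⟩
  obtain ⟨i, hi⟩ := a1 y hy
  exact (k3 _ i _ (T.base d hd ⟨_, N', j', dev_of h'⟩ (A i) y hy hi)).trans (j2 i y hi)

theorem left_inv (hd : PDy d) {N N' : Spc} {j : X → N.pt} {j' : X → N'.pt} (h : IsDev d N j)
    (h' : IsDev d N' j') {k : N.pt → N'.pt} {k' : N'.pt → N.pt} (c : Continuous k)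
    (c' : Continuous k') (i : IsIsom k) (i' : IsIsom k') (e : ∀ y ≠ 0, k (j y) = j' y)
    (e' : ∀ y ≠ 0, k' (j' y) = j y) (x : N.pt) : k' (k x) = x :=
  rel_self Z T hd (A := ⟨_, N, j, dev_of h⟩) ⟨univ, k' ∘ k, ⟨Hull.univ, fun x _ =>
    Z.k1.comp (dev_of h).gh.st (dev_of h').gh.st (dev_of h).gh.st (Z.k1.of_isom i c x)
      (Z.k1.of_isom i' c' _), fun y hy _ => ⟨hy, (congrArg k' (e y hy)).trans (e' y hy)⟩⟩,
    trivial, rfl⟩

/-- Row UQ. -/
theorem uq : UQ := fun d hd N j N' j' h h' => by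
  obtain ⟨k, k1, k2, k3⟩ := h'.2 N j h.1
  obtain ⟨l, l1, l2, l3⟩ := h.2 N' j' h'.1
  exact ⟨⟨⟨k, l, left_inv Z T hd h.1 h'.1 k1.continuous l1.continuous k2 l2 k3 l3,
    left_inv Z T hd h'.1 h.1 l1.continuous k1.continuous l2 k2 l3 k3⟩, k1.continuous,
    l1.continuous⟩, k2, l2, k3⟩

end Vale.Agent.P354CB60
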