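import Vale.Agent.P354CB60.Mg
import Vale.Agent.P354CB24.B0
import Vale.Agent.P354CB44.Corner
import Vale.Agent.P354CB28.Nball
import Vale.Agent.P354CB19.Pu
import Vale.Agent.P354CB92.Chain
import Vale.Agent.P354CB69.Extf
import Vale.Agent.P354CB55.Gone
import Vale.Agent.P354CB47.Lim
import Vale.Agent.P354CB50.Ord
import Vale.Agent.P354CB41.Hull
import Vale.Agent.P354CB72.Ac
import Vale.Agent.P354CB59.Lk1
import Vale.Agent.P354CB15.Lk2
import Vale.Agent.P354CB97.Lk3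
import Vale.Agent.P354CB74.L3
import Vale.Agent.P354CB75.Key0
import Vale.Agent.P354CB29.Ka1
import Vale.Agent.P354CB49.Ka2
import Vale.Agent.P354CB45.Kt
import Vale.Agent.P354CB48.Kt2
import Vale.Agent.P354CB48.Kh
import Vale.Agent.P354CB44.Kj
import Vale.Agent.P354CB49.Kr
import Vale.Agent.P354CB46.Ks1
import Vale.Agent.P354CB71.Ks2
import Vale.Agent.P354CB81.Ks
import Vale.Agent.P354CB41.Key
import Vale.Agent.P354CB35.Gl1
import Vale.Agent.P354CB73.Gl2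
import Vale.Agent.P354CB55.Js
import Vale.Agent.P354CB17.Step
import Vale.Agent.P354CB47.Run
import Vale.Agent.P354CB59.Sat
import Vale.Agent.P354CB63.Ld1
import Vale.Agent.P354CB97.Ld2
import Vale.Agent.P354DT.LocOf
import Vale.Agent.P354LC.Main
import Vale.Agent.P354UR.Roll
import Vale.Agent.P354YC.UnqP
import Vale.Agent.P354YC.Gu

/-!
The theorem of Choquet-Bruhat and Geroch.
-/

namespace Vale.Agent.P354CB60

open Vale.Agent.P354n Vale.Agent.P354CB
open Vale.Agent.P354I (X)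
open Vale.Agent.P354Z (IsMGHD DD)

theorem l1 : L1 :=
  have b := P354CB24.b0
  have c := P354CB44.corner b
  have o := P354CB13.opn b c
  have h := P354CB92.chain b c
  ⟨b, c, o, P354CB28.nball, P354CB19.pu b c o P354CB28.nball, h, P354CB69.extf b o h⟩

theorem l2 : L2 :=
  have g := P354CB55.gone l1
  have l := P354CB47.lim l1 g
  have o := P354CB50.ord l1 g l
  ⟨g, l, o, P354CB41.hull l1 g o, P354CB72.ac l1 g⟩

theorem l0 : L0 := ⟨l1, l2, P354CB59.lk1, P354CB15.lk2, P354CB97.lk3⟩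

theorem gu : P354YC.GU := P354YC.gu_of P354UR.roll P354YC.unq

theorem l3 : L3 := P354CB74.l3 l0 gu

theorem key : KEY :=
  P354CB41.key l0 l3 (P354CB75.key0 l0 (P354CB75.ka0 l0) (P354CB29.ka1 l0) (P354CB49.ka2 l0)
    P354CB45.kt P354CB48.kt2 (P354CB48.kh l1.b) (P354CB44.kj l1.b l0.k3)
    (P354CB81.ks gu (P354CB46.ks1 l0.k3 P354CB49.kr) P354CB71.ks2))

theorem mghd : MG :=
  mg l0 l3 (P354CB63.ld1 (P354DT.loc_of P354LC.loc)) P354CB97.ld2
    (P354CB59.sat l0 l3 (P354CB17.step l3) (P354CB47.run l3 (P354CB55.js l0.k3) key))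
    (P354CB35.gl1 l0 l3 key) (P354CB73.gl2 l0 l3)

/-- Every datum has a maximal development, unique up to isometry. -/
theorem cbg {M a : ℝ} {ρ : X → ℝ} (d : DD M a ρ) : ∃ N j, IsMGHD d.1 N j ∧
    ∀ N' j', IsMGHD d.1 N' j' →
      ∃ κ : N.pt ≃ₜ N'.pt, IsIsom κ ∧ IsIsom κ.symm ∧ ∀ y ≠ 0, κ (j y) = j' y := by
  obtain ⟨N, j, h⟩ := mghd d.1 ⟨d.2.smooth, d.2.pos⟩ fun y hy =>
    ⟨d.2.hamilton y hy, d.2.momentum y hy⟩
  exact ⟨N, j, h, fun N' j' h' => uq l0 l3 d.1 ⟨d.2.smooth, d.2.pos⟩ N j N' j' h h'⟩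

end Vale.Agent.P354CB60
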